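import Mathlib
import Vale.Agent.Lib.P162.Defs
import Vale.Agent.Lib.P162.RDefs
import Vale.Agent.Lib.P162.CVDefs
import Vale.Agent.Lib.P162.helper23.ProdTv
import Vale.Agent.Lib.P162.helper36.MoveInj
import Vale.Agent.Lib.P162.helper43.LumpTail
import Vale.Agent.Lib.P162.helper93.Gap
import Vale.Agent.Lib.P162.helper95.KmatBasic

/-!
# P162-CV1 (helper70, backup copy of pool job 390): the two-walker kernel is stochastic
-/

namespace Vale.Agent.Lib.P162.H70CV

open Finset BigOperators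

/-- Summing the `(j+1)`-card kernel over the START position of the new card gives the `j`-card
kernel of the old cards. -/
theorem step_sum_start (h j : ℕ) [NeZero h] (v : Fin j → ZMod (2 * h))
    (y : Fin (j + 1) → ZMod (2 * h)) :
    ∑ q : ZMod (2 * h), Kmat h (j + 1) (Fin.cons q v : Fin (j + 1) → ZMod (2 * h)) y
      = Kmat h j v (Fin.tail y) := by
  classical
  have hsurj : ∀ c : ZMod h → Bool, Function.Surjective (move h c) := fun c =>
    Finite.injective_iff_surjective.1 (H36.move_injective h c)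
  choose g hg using fun c => hsurj c (y 0)
  show ∑ q : ZMod (2 * h),
      ((univ.filter fun c : ZMod h → Bool =>
        ∀ i', move h c ((Fin.cons q v : Fin (j + 1) → ZMod (2 * h)) i') = y i').card : ℝ) / 2 ^ h
    = ((univ.filter fun c : ZMod h → Bool =>
        ∀ i, move h c (v i) = Fin.tail y i).card : ℝ) / 2 ^ h
  rw [← Finset.sum_div]
  congr 1
  rw [← Nat.cast_sum]
  congr 1
  rw [Finset.card_eq_sum_card_fiberwise (f := g)
    (s := univ.filter fun c : ZMod h → Bool => ∀ i, move h c (v i) = Fin.tail y i)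
    (t := (univ : Finset (ZMod (2 * h)))) (fun _ _ => Finset.mem_univ _)]
  refine Finset.sum_congr rfl fun q _ => ?_
  congr 1
  ext c
  rw [Finset.mem_filter, Finset.mem_filter, Finset.mem_filter]
  constructor
  · rintro ⟨hu, hc⟩
    refine ⟨⟨hu, fun i => ?_⟩, ?_⟩
    · have h1 := hc i.succ
      rw [Fin.cons_succ] at h1
      exact h1
    · have h1 := hc 0
      rw [Fin.cons_zero] at h1
      exact H36.move_injective h c ((hg c).trans h1.symm)
  · rintro ⟨⟨hu, hc⟩, h0⟩
    refine ⟨hu, fun i' => ?_⟩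
    refine Fin.cases ?_ (fun i => ?_) i'
    · rw [Fin.cons_zero, ← h0]
      exact hg c
    · rw [Fin.cons_succ]
      exact hc i

theorem Qmat_nonneg (h j : ℕ) [NeZero h] (u y : Fin (j + 2) → ZMod (2 * h)) :
    0 ≤ Qmat h j u y := by
  rw [Qmat_apply]
  exact div_nonneg (mul_nonneg (H95.stepProb_nonneg h (j + 1) _ _)
    (H95.stepProb_nonneg h (j + 1) _ _)) (H95.stepProb_nonneg h j _ _)

theorem Qmat_row_sum_cons (h j : ℕ) [NeZero h] (a b : ZMod (2 * h))
    (w : Fin j → ZMod (2 * h)) :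
    ∑ y, Qmat h j (Fin.cons a (Fin.cons b w) : Fin (j + 2) → ZMod (2 * h)) y = 1 := by
  classical
  have hinner : ∀ v1 : Fin j → ZMod (2 * h),
      ∑ q1 : ZMod (2 * h), ∑ q1' : ZMod (2 * h),
        Qmat h j (Fin.cons a (Fin.cons b w) : Fin (j + 2) → ZMod (2 * h))
          (Fin.cons q1 (Fin.cons q1' v1) : Fin (j + 2) → ZMod (2 * h))
      = Kmat h j w v1 := by
    intro v1
    have hA : ∑ q1 : ZMod (2 * h),
        Kmat h (j + 1) (Fin.cons a w : Fin (j + 1) → ZMod (2 * h))
          (Fin.cons q1 v1 : Fin (j + 1) → ZMod (2 * h)) = Kmat h j w v1 := by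
      have h1 := H43.step_tail h j (Fin.cons a w : Fin (j + 1) → ZMod (2 * h)) v1
      rw [Fin.tail_cons] at h1
      exact h1
    have hB : ∑ q1' : ZMod (2 * h),
        Kmat h (j + 1) (Fin.cons b w : Fin (j + 1) → ZMod (2 * h))
          (Fin.cons q1' v1 : Fin (j + 1) → ZMod (2 * h)) = Kmat h j w v1 := by
      have h1 := H43.step_tail h j (Fin.cons b w : Fin (j + 1) → ZMod (2 * h)) v1
      rw [Fin.tail_cons] at h1
      exact h1
    calc ∑ q1 : ZMod (2 * h), ∑ q1' : ZMod (2 * h),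
          Qmat h j (Fin.cons a (Fin.cons b w) : Fin (j + 2) → ZMod (2 * h))
            (Fin.cons q1 (Fin.cons q1' v1) : Fin (j + 2) → ZMod (2 * h))
        = ∑ q1 : ZMod (2 * h), ∑ q1' : ZMod (2 * h),
            Kmat h (j + 1) (Fin.cons a w : Fin (j + 1) → ZMod (2 * h))
                (Fin.cons q1 v1 : Fin (j + 1) → ZMod (2 * h))
              * Kmat h (j + 1) (Fin.cons b w : Fin (j + 1) → ZMod (2 * h))
                (Fin.cons q1' v1 : Fin (j + 1) → ZMod (2 * h)) / Kmat h j w v1 := rfl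
      _ = (∑ q1 : ZMod (2 * h),
            Kmat h (j + 1) (Fin.cons a w : Fin (j + 1) → ZMod (2 * h))
                (Fin.cons q1 v1 : Fin (j + 1) → ZMod (2 * h)))
            * (∑ q1' : ZMod (2 * h),
              Kmat h (j + 1) (Fin.cons b w : Fin (j + 1) → ZMod (2 * h))
                (Fin.cons q1' v1 : Fin (j + 1) → ZMod (2 * h))) / Kmat h j w v1 := by
          rw [Finset.sum_mul_sum, Finset.sum_div]
          refine Finset.sum_congr rfl fun q1 _ => ?_
          rw [Finset.sum_div]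
      _ = Kmat h j w v1 := by
          rw [hA, hB, mul_self_div_self]
  calc ∑ y, Qmat h j (Fin.cons a (Fin.cons b w) : Fin (j + 2) → ZMod (2 * h)) y
      = ∑ q1 : ZMod (2 * h), ∑ y' : Fin (j + 1) → ZMod (2 * h),
          Qmat h j (Fin.cons a (Fin.cons b w) : Fin (j + 2) → ZMod (2 * h))
            (Fin.cons q1 y' : Fin (j + 2) → ZMod (2 * h)) :=
        H23.sum_fin_succ_fun (j + 1) _
    _ = ∑ q1 : ZMod (2 * h), ∑ q1' : ZMod (2 * h), ∑ v1 : Fin j → ZMod (2 * h),
          Qmat h j (Fin.cons a (Fin.cons b w) : Fin (j + 2) → ZMod (2 * h))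
            (Fin.cons q1 (Fin.cons q1' v1) : Fin (j + 2) → ZMod (2 * h)) := by
        refine Finset.sum_congr rfl fun q1 _ => ?_
        exact H23.sum_fin_succ_fun j
          (fun y' : Fin (j + 1) → ZMod (2 * h) =>
            Qmat h j (Fin.cons a (Fin.cons b w) : Fin (j + 2) → ZMod (2 * h))
              (Fin.cons q1 y' : Fin (j + 2) → ZMod (2 * h)))
    _ = ∑ q1 : ZMod (2 * h), ∑ v1 : Fin j → ZMod (2 * h), ∑ q1' : ZMod (2 * h),
          Qmat h j (Fin.cons a (Fin.cons b w) : Fin (j + 2) → ZMod (2 * h))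
            (Fin.cons q1 (Fin.cons q1' v1) : Fin (j + 2) → ZMod (2 * h)) := by
        refine Finset.sum_congr rfl fun q1 _ => ?_
        exact Finset.sum_comm
    _ = ∑ v1 : Fin j → ZMod (2 * h), ∑ q1 : ZMod (2 * h), ∑ q1' : ZMod (2 * h),
          Qmat h j (Fin.cons a (Fin.cons b w) : Fin (j + 2) → ZMod (2 * h))
            (Fin.cons q1 (Fin.cons q1' v1) : Fin (j + 2) → ZMod (2 * h)) :=
        Finset.sum_comm
    _ = ∑ v1 : Fin j → ZMod (2 * h), Kmat h j w v1 := by
        refine Finset.sum_congr rfl fun v1 _ => ?_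
        exact hinner v1
    _ = 1 := H95.stepProb_sum h j w

theorem Qmat_row_sum (h j : ℕ) [NeZero h] (u : Fin (j + 2) → ZMod (2 * h)) :
    ∑ y, Qmat h j u y = 1 := by
  have hu : u = (Fin.cons (u 0) (Fin.cons (u 1) (Fin.tail (Fin.tail u))) :
      Fin (j + 2) → ZMod (2 * h)) := by
    have h1 : (Fin.cons (u 1) (Fin.tail (Fin.tail u)) : Fin (j + 1) → ZMod (2 * h))
        = Fin.tail u := Fin.cons_self_tail (Fin.tail u)
    rw [h1, Fin.cons_self_tail]
  rw [hu]
  exact Qmat_row_sum_cons h j (u 0) (u 1) (Fin.tail (Fin.tail u))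

theorem Qpow_nonneg (h j : ℕ) [NeZero h] (t : ℕ) (u y : Fin (j + 2) → ZMod (2 * h)) :
    0 ≤ (Qmat h j ^ t) u y :=
  H93.H93_pow_nonneg (Qmat h j) (Qmat_nonneg h j) t u y

theorem Qpow_row_sum (h j : ℕ) [NeZero h] (t : ℕ) (u : Fin (j + 2) → ZMod (2 * h)) :
    ∑ y, (Qmat h j ^ t) u y = 1 :=
  H93.H93_pow_rowsum (Qmat h j) (Qmat_row_sum h j) t u

end Vale.Agent.Lib.P162.H70CV
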